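import Mathlib
import Vale.Agent.Helper23.P226More

/-
P226, hand-in DominantCells.
The propeller inequality holds for every family of pairwise disjoint measurable subsets of R^d
(in particular every measurable partition), in every dimension d and with any number k of cells,
provided one cell has standard Gaussian measure at least 51/100, or two distinct cells have
total standard Gaussian measure at least 91/100:
the sum of the squared Euclidean norms of the unnormalized Gaussian first moments is at most
9/(8 pi).
-/

namespace Vale.Agent.Results.P226.DominantCells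

open MeasureTheory ProbabilityTheory

theorem result (d k : ℕ) (A : Fin k → Set (EuclideanSpace ℝ (Fin d)))
    (hA : ∀ i, MeasurableSet (A i)) (hdisj : ∀ i j, i ≠ j → Disjoint (A i) (A j))
    (hdom : (∃ i0, 51 / 100 ≤ stdGaussian (EuclideanSpace ℝ (Fin d)) (A i0)) ∨
      (∃ i0 i1, i0 ≠ i1 ∧ 91 / 100 ≤ stdGaussian (EuclideanSpace ℝ (Fin d)) (A i0)
        + stdGaussian (EuclideanSpace ℝ (Fin d)) (A i1))) :
    ∑ i, ‖∫ x in A i, x ∂(stdGaussian (EuclideanSpace ℝ (Fin d)))‖ ^ 2 ≤ 9 / (8 * Real.pi) := by
  rcases hdom with ⟨i0, h⟩ | ⟨i0, i1, hne, h⟩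
  · exact Vale.Agent.Helper23.P226More.dominant_bound d k A hA hdisj i0 h
  · exact Vale.Agent.Helper23.P226More.two_dominant_bound d k A hA hdisj i0 i1 hne h

end Vale.Agent.Results.P226.DominantCells
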