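import Mathlib
import Vale.Agent.Helper23.P226Core

/-
P226, hand-in SmallCells.
The propeller inequality holds for every family of pairwise disjoint measurable subsets of R^d
(in particular every measurable partition), in every dimension d and with any number k of cells,
provided every cell has standard Gaussian measure at most 1/7:
the sum of the squared Euclidean norms of the unnormalized Gaussian first moments is at most
9/(8 pi).
-/

namespace Vale.Agent.Results.P226.SmallCells

open MeasureTheory ProbabilityTheory

theorem result (d k : ℕ) (A : Fin k → Set (EuclideanSpace ℝ (Fin d)))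
    (hA : ∀ i, MeasurableSet (A i)) (hdisj : ∀ i j, i ≠ j → Disjoint (A i) (A j))
    (hsmall : ∀ i, stdGaussian (EuclideanSpace ℝ (Fin d)) (A i) ≤ 1 / 7) :
    ∑ i, ‖∫ x in A i, x ∂(stdGaussian (EuclideanSpace ℝ (Fin d)))‖ ^ 2 ≤ 9 / (8 * Real.pi) :=
  Vale.Agent.Helper23.P226Core.small_cells_bound d k A hA hdisj hsmall

end Vale.Agent.Results.P226.SmallCells
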