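import Mathlib
import Vale.Agent.Helper23.P226More

/-
P226, hand-in SmallOrLargeCells.
The propeller inequality holds for every family of pairwise disjoint measurable subsets of R^d
(in particular every measurable partition), in every dimension d and with any number k of cells,
provided every cell has standard Gaussian measure at most 1/7 or at least 11/25:
the sum of the squared Euclidean norms of the unnormalized Gaussian first moments is at most
9/(8 pi).
-/

namespace Vale.Agent.Results.P226.SmallOrLargeCells

open MeasureTheory ProbabilityTheory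

theorem result (d k : ℕ) (A : Fin k → Set (EuclideanSpace ℝ (Fin d)))
    (hA : ∀ i, MeasurableSet (A i)) (hdisj : ∀ i j, i ≠ j → Disjoint (A i) (A j))
    (h : ∀ i, stdGaussian (EuclideanSpace ℝ (Fin d)) (A i) ≤ 1 / 7
      ∨ 11 / 25 ≤ stdGaussian (EuclideanSpace ℝ (Fin d)) (A i)) :
    ∑ i, ‖∫ x in A i, x ∂(stdGaussian (EuclideanSpace ℝ (Fin d)))‖ ^ 2 ≤ 9 / (8 * Real.pi) :=
  Vale.Agent.Helper23.P226More.small_or_large_bound d k A hA hdisj h

end Vale.Agent.Results.P226.SmallOrLargeCells
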