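import Mathlib
import Vale.Agent.Helper23.P226Core

/-
P226, hand-in UniversalBound.
For every dimension d, every k and every family A_1, ..., A_k of pairwise disjoint measurable
subsets of R^d (in particular every measurable partition), the sum of the squared Euclidean
norms of the unnormalized Gaussian first moments is at most 81/200 = 0.405.
The conjectured optimal value is 9/(8 pi) = 0.358...
-/

namespace Vale.Agent.Results.P226.UniversalBound

open MeasureTheory ProbabilityTheory

theorem result (d k : ℕ) (A : Fin k → Set (EuclideanSpace ℝ (Fin d)))
    (hA : ∀ i, MeasurableSet (A i)) (hdisj : ∀ i j, i ≠ j → Disjoint (A i) (A j)) :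
    ∑ i, ‖∫ x in A i, x ∂(stdGaussian (EuclideanSpace ℝ (Fin d)))‖ ^ 2 ≤ 81 / 200 :=
  Vale.Agent.Helper23.P226Core.universal_bound d k A hA hdisj

end Vale.Agent.Results.P226.UniversalBound
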